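import Mathlib
import Vale.Agent.P052.R2.H38.Asm

/-!
# P052: Borsuk's conjecture fails in every dimension at least nine

The example in dimension nine is the set of the matrices `x xᵀ`, `x` a unit vector of `ℝ⁴`.
-/

namespace Vale.Agent.Results.P052.ABorsukNine

/-- For every `d ≥ 9` there is a compact set `Y` of positive diameter in `ℝ^d` such that in every
decomposition of `Y` into `d + 1` parts some part has the same diameter as `Y`. -/
theorem result : ∀ d : ℕ, 9 ≤ d →
    ∃ Y : Set (EuclideanSpace ℝ (Fin d)), IsCompact Y ∧ 0 < Metric.diam Y ∧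
      ∀ P : Fin (d + 1) → Set (EuclideanSpace ℝ (Fin d)), (⋃ i, P i) = Y →
        ∃ i, Metric.diam (P i) = Metric.diam Y :=
  Vale.Agent.P052.H38.borsuk_nine

end Vale.Agent.Results.P052.ABorsukNine
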