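import Vale.Agent.P052.R3.H373.Final

namespace Vale.Agent.Results.P052.LinearExcess

open Vale.Agent.P052 Vale.Agent.P052.H373

/-- (1) Borsuk's conjecture fails by a linear excess in every dimension `d ≥ 9`.
(2) An explicit lower bound in terms of `d + 1 = 66 a + 10 e + c`. (3) Borsuk numbers of compact
sets on spheres of radius smaller than `diam / √2` are superadditive. -/
theorem result :
    (∀ d : ℕ, 9 ≤ d →
      ∃ Y : Set (EuclideanSpace ℝ (Fin d)), OnSmallSphere Y ∧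
        (d + 1) + (d + 1) / 10 ≤ borsukNumber Y) ∧
    (∀ a e c d : ℕ, 1 ≤ a + e → d + 1 = 66 * a + 10 * e + c →
      ∃ Y : Set (EuclideanSpace ℝ (Fin d)), OnSmallSphere Y ∧
        84 * a + 11 * e + c ≤ borsukNumber Y) ∧
    (∀ (d₁ d₂ : ℕ) (Y₁ : Set (EuclideanSpace ℝ (Fin d₁)))
      (Y₂ : Set (EuclideanSpace ℝ (Fin d₂))), OnSmallSphere Y₁ → OnSmallSphere Y₂ →
      ∃ Y : Set (EuclideanSpace ℝ (Fin (d₁ + d₂ + 1))), OnSmallSphere Y ∧
        borsukNumber Y₁ + borsukNumber Y₂ ≤ borsukNumber Y) :=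
  ⟨main1, main2, fun _ _ => superadditive⟩

end Vale.Agent.Results.P052.LinearExcess
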