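import Vale.Agent.P052.Defs
import Vale.Agent.P052.R2.H632.RotF
import Vale.Agent.P052.R2.H632.Ball
import Vale.Agent.P052.R2.H632.Roll
import Vale.Agent.P052.R2.H632.Kappa
import Vale.Agent.P052.R3.H304.Sel
import Vale.Agent.P052.R3.H304.Ball
import Vale.Agent.P052.R3.H436.Exact

namespace Vale.Agent.Results.P052.NarrowFarSets

open Vale.Agent.P052 Metric Set
open scoped InnerProductSpace Pointwise

/-- `d`-dimensional Euclidean space. -/
abbrev Pt (d : ℕ) : Type := EuclideanSpace ℝ (Fin d)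

/-- `κ_d = √(m n / ((m + 1) (n + 1)))` with `m = ⌊d/2⌋`, `n = ⌈d/2⌉`. -/
noncomputable def kappa (d : ℕ) : ℝ :=
  √(((d / 2 : ℕ) * ((d + 1) / 2 : ℕ) : ℝ) / (((d / 2 : ℕ) + 1) * (((d + 1) / 2 : ℕ) + 1)))

variable {d : ℕ}

/-- `y` is a point of the closure of `X` at distance `diam X` from `x`. -/
def Far (X : Set (Pt d)) (x y : Pt d) : Prop := y ∈ closure X ∧ dist x y = diam X

/-- The points of the closure of `X` that have a far point. -/
def farPoints (X : Set (Pt d)) : Set (Pt d) := {x | x ∈ closure X ∧ ∃ y, Far X x y}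

/-- `S` is covered by `N` bounded sets of diameter less than `diam X`. -/
def CoveredBy (X S : Set (Pt d)) (N : ℕ) : Prop :=
  ∃ T : Fin N → Set (Pt d), (∀ j, Bornology.IsBounded (T j) ∧ diam (T j) < diam X) ∧
    S ⊆ ⋃ j, T j

/-- Some nonzero vector makes an angle at most `ρ` with `z - x` for all `z` far from `x`. -/
def CapRadius (X : Set (Pt d)) (x : Pt d) (ρ : ℝ) : Prop :=
  ∃ v : Pt d, v ≠ 0 ∧ ∀ z, Far X x z → InnerProductGeometry.angle v (z - x) ≤ ρ

/-- Every point of the closure of `X` with a far point lies in a translate of `Z` all of whose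
points have distance at most `diam X` from all points of `X`. -/
def Rolls (X Z : Set (Pt d)) : Prop :=
  ∀ x ∈ farPoints X, ∃ c : Pt d, (∃ z ∈ Z, x = c + z) ∧
    ∀ z ∈ Z, ∀ y ∈ X, dist (c + z) y ≤ diam X

/-- The isometry with linear part `g` and fixed point `p` maps `X` into itself. -/
def Preserves (X : Set (Pt d)) (p : Pt d) (g : Pt d →ₗᵢ[ℝ] Pt d) : Prop :=
  ∀ x ∈ X, p + g (x - p) ∈ X

/-- `g` fixes the orthogonal complement of `V` pointwise. -/
def Fixes (V : Submodule ℝ (Pt d)) (g : Pt d →ₗᵢ[ℝ] Pt d) : Prop := ∀ q ∈ Vᗮ, g q = q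

/-- The unit vectors of `V`. -/
def unitVectors (V : Submodule ℝ (Pt d)) : Set (Pt d) := {v | v ∈ V ∧ ‖v‖ = 1}

/-- The closed ball of radius `r` about `0` in `V`. -/
def ballOf (V : Submodule ℝ (Pt d)) (r : ℝ) : Set (Pt d) := {z | z ∈ V ∧ ‖z‖ ≤ r}

/-- The flat `p + V^⊥`. -/
def flat (V : Submodule ℝ (Pt d)) (p : Pt d) : Set (Pt d) := {x | x - p ∈ Vᗮ}

/-- For all unit vectors `v`, `w` in `V` there is an isometry with linear part `g`,
`⟪g v, w⟫ > κ`, which fixes `p + V^⊥` pointwise and maps `X` into itself. -/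
def DenseOrbits (X : Set (Pt d)) (V : Submodule ℝ (Pt d)) (p : Pt d) (κ : ℝ) : Prop :=
  ∀ v ∈ unitVectors V, ∀ w ∈ unitVectors V, ∃ g, Preserves X p g ∧ Fixes V g ∧ κ < ⟪g v, w⟫_ℝ

/-- The image of `x` under the rotation by the angle `t` about the flat
`{x | ⟪e 0, x - p⟫ = ⟪e 1, x - p⟫ = 0}`, for orthonormal vectors `e 0`, `e 1`. -/
noncomputable def rot (e : Fin 2 → Pt d) (t : ℝ) (p x : Pt d) : Pt d :=
  x + ((Real.cos t - 1) * ⟪e 0, x - p⟫_ℝ - Real.sin t * ⟪e 1, x - p⟫_ℝ) • e 0 +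
    (Real.sin t * ⟪e 0, x - p⟫_ℝ + (Real.cos t - 1) * ⟪e 1, x - p⟫_ℝ) • e 1

/-- `X` is a union of `d + 1` sets of diameter less than `D` if one of the following holds.
(A) For all far `x`, `y` in `K` there are cap radii `ρ` of `x` and `σ` of `y` with
`ρ + σ < arccos κ_d`.
(B) For all far `x`, `y` in `K` one of them has a cap radius less than
`arccos κ_d - arccos (√((d + 1) / (2 d)))`.
(C) `(d - 1) |y - z|² < d (1 - κ_d) D²` whenever `y` and `z` are far from a common point of `K`.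
(D) `X` lies in a ball of radius `r` with `2 (1 + κ_d) r² < D²`. -/
def SmallAngles (X : Set (Pt d)) : Prop :=
  ((∀ x ∈ closure X, ∀ y, Far X x y → ∃ ρ σ : ℝ, ρ + σ < Real.arccos (kappa d) ∧
    CapRadius X x ρ ∧ CapRadius X y σ) → IsSmallerCover X (d + 1)) ∧
  ((∀ x ∈ closure X, ∀ y, Far X x y →
    ∃ ρ < Real.arccos (kappa d) - Real.arccos (√((d + 1) / (2 * d))),
    CapRadius X x ρ ∨ CapRadius X y ρ) → IsSmallerCover X (d + 1)) ∧
  ((∀ x ∈ closure X, ∀ y z, Far X x y → Far X x z →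
    ((d : ℝ) - 1) * dist y z ^ 2 < d * (1 - kappa d) * diam X ^ 2) →
    IsSmallerCover X (d + 1)) ∧
  (∀ (c : Pt d) (r : ℝ), X ⊆ closedBall c r → 2 * (1 + kappa d) * r ^ 2 < diam X ^ 2 →
    IsSmallerCover X (d + 1))

/-- (E): Symmetry without mirrors. `V` a subspace of dimension `a`, `A = p + V^⊥`: if for all unit
vectors `v, w ∈ V` some isometry fixing `A` pointwise, with linear part `g`, `⟪g v, w⟫ > κ_a`, maps
`X` into itself, and if the points of `K` in `A` with a far point are covered by `N` sets of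
diameter less than `D`, then `X` is a union of `a + 1 + N` sets of diameter less than `D`; if `A` is
the point `p`, `X` is a union of `d + 1` sets of diameter less than `D`. -/
def Symmetries (X : Set (Pt d)) : Prop :=
  (∀ (a N : ℕ) (V : Submodule ℝ (Pt d)) (p : Pt d), Module.finrank ℝ V = a →
    DenseOrbits X V p (kappa a) → CoveredBy X (farPoints X ∩ flat V p) N →
    IsSmallerCover X (a + 1 + N)) ∧
  (∀ p : Pt d, DenseOrbits X ⊤ p (kappa d) → IsSmallerCover X (d + 1))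

/-- (F): If `X` is mapped into itself by the rotation by the angle `2π/m`, `m ≥ 4`, about a flat `A`
of codimension two, and the points of `K` in `A` with a far point are covered by `N` sets of
diameter less than `D`, then `X` is a union of `3 + N` sets of diameter less than `D`. -/
def Rotations (X : Set (Pt d)) : Prop :=
  ∀ (m N : ℕ) (e : Fin 2 → Pt d) (p : Pt d), 4 ≤ m → Orthonormal ℝ e →
    MapsTo (rot e (2 * Real.pi / m) p) X X →
    CoveredBy X {x ∈ farPoints X | ⟪e 0, x - p⟫_ℝ = 0 ∧ ⟪e 1, x - p⟫_ℝ = 0} N →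
    IsSmallerCover X (3 + N)

/-- (G): If `Rolls X Z`, `Z` the convex hull of `m + 1` points that are not all equal, or a closed
ball of positive radius about `0` in a subspace of dimension `m ≥ 1`, then `X` is a union of `m + 1`
sets of diameter less than `D`. -/
def Summands (X : Set (Pt d)) : Prop :=
  (∀ (m : ℕ) (z : Fin (m + 1) → Pt d), (∃ i j, z i ≠ z j) →
    Rolls X (convexHull ℝ (range z)) → IsSmallerCover X (m + 1)) ∧
  (∀ (m : ℕ) (V : Submodule ℝ (Pt d)) (r : ℝ), Module.finrank ℝ V = m → 1 ≤ m → 0 < r →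
    Rolls X (ballOf V r) → IsSmallerCover X (m + 1))

/-- Sufficient conditions for `Rolls X Z`: `Z` is compact, `X ⊆ Y + Z` and `Y + Z` is bounded of
diameter at most `D`; or every point of `K` with a far point lies in a translate of `Z` contained in
the convex hull of `K`. -/
def RollingCriteria (X : Set (Pt d)) : Prop :=
  (∀ Y Z : Set (Pt d), IsCompact Z → X ⊆ Y + Z → Bornology.IsBounded (Y + Z) →
    diam (Y + Z) ≤ diam X → Rolls X Z) ∧
  (∀ Z : Set (Pt d), (∀ x ∈ farPoints X, ∃ c : Pt d, (∃ z ∈ Z, x = c + z) ∧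
    ∀ z ∈ Z, c + z ∈ convexHull ℝ (closure X)) → Rolls X Z)

/-- (H): If `u_1, …, u_k` are vectors and the points `x ∈ K` with a far point, such that for every
`i` some `y` far from `x` has `⟪u_i, y - x⟫ ≤ 0`, are covered by `N` sets of diameter less than `D`,
then `X` is a union of `k + N` sets of diameter less than `D`. -/
def HalfSpaces (X : Set (Pt d)) : Prop :=
  ∀ (k N : ℕ) (u : Fin k → Pt d),
    CoveredBy X {x ∈ farPoints X | ∀ i, ∃ y, Far X x y ∧ ⟪u i, y - x⟫_ℝ ≤ 0} N →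
    IsSmallerCover X (k + N)

/-- `X` bounded in `ℝ^d`, `D = diam X > 0`, `K` its closure; two points of `K` are far if their
distance is `D`; `κ_d = √(m n / ((m + 1) (n + 1)))`, `m = ⌊d/2⌋`, `n = ⌈d/2⌉`. Sufficient conditions
for `X` to be a union of few sets of diameter less than `D`: (A) - (D) in `SmallAngles`, (E) in
`Symmetries`, (F) in `Rotations`, (G) in `Summands` with `RollingCriteria`, (H) in `HalfSpaces`. -/
theorem result (X : Set (Pt d)) (hX : Bornology.IsBounded X) (hD : 0 < diam X) :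
    SmallAngles X ∧ Symmetries X ∧ Rotations X ∧ Summands X ∧ RollingCriteria X ∧
      HalfSpaces X := by
  have conv : ∀ k, H632.Split X k → IsSmallerCover X k := by
    rintro k ⟨S, h1, h2⟩
    exact ⟨S, h2.symm, fun i => (h1 i).2⟩
  have conv' : (∃ P : Fin (d + 1) → Set (EuclideanSpace ℝ (Fin d)),
        X = ⋃ i, P i ∧ ∀ i, Metric.diam (P i) < Metric.diam X) → IsSmallerCover X (d + 1) := by
    rintro ⟨P, h⟩
    exact ⟨P, h.1.symm, h.2⟩
  have hroll : ∀ Z, Rolls X Z → H632.Rolls X Z := by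
    intro Z h x hx hfar
    obtain ⟨y, hy, hd⟩ := hfar
    exact h x ⟨hx, y, hy, hd⟩
  have hroll' : ∀ Z, H632.Rolls X Z → Rolls X Z := by
    rintro Z h x ⟨hx, y, hy, hd⟩
    exact h x hx ⟨y, hy, hd⟩
  have hc : Vale.Agent.P052.R3.H304.CellBound d (kappa d) := by
    intro L hL u v k hu hv hu1 hv1
    exact Vale.Agent.P052.R3.H436.cell_angle_exact L hL u v k hu hv hu1 hv1
  have hk0 : -1 ≤ kappa d := by
    have : 0 ≤ kappa d := Real.sqrt_nonneg _
    linarith
  have hk1 : kappa d < 1 := by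
    unfold kappa
    rw [Real.sqrt_lt' one_pos, div_lt_iff₀ (by positivity)]
    have a1 : (0 : ℝ) ≤ ((d / 2 : ℕ) : ℝ) := Nat.cast_nonneg _
    have a2 : (0 : ℝ) ≤ (((d + 1) / 2 : ℕ) : ℝ) := Nat.cast_nonneg _
    nlinarith
  refine ⟨⟨?_, ?_, ?_, ?_⟩, ⟨?_, ?_⟩, ?_, ⟨?_, ?_⟩, ⟨?_, ?_⟩, ?_⟩
  · intro h
    refine conv' (Vale.Agent.P052.R3.H304.narrow hc hX hD ?_)
    intro x hx y hy hd
    obtain ⟨ρ, σ, hρ, ⟨v, hv, hv2⟩, ⟨w, hw, hw2⟩⟩ := h x hx y ⟨hy, hd⟩
    exact ⟨v, w, hv, hw, ρ, σ, hρ, fun z hz hd => hv2 z ⟨hz, hd⟩, fun z hz hd => hw2 z ⟨hz, hd⟩⟩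
  · intro h
    refine conv' (Vale.Agent.P052.R3.H304.narrow_one hc hX hD ?_)
    intro x hx y hy hd
    obtain ⟨ρ, hρ, ⟨v, hv, hv2⟩ | ⟨v, hv, hv2⟩⟩ := h x hx y ⟨hy, hd⟩
    · exact ⟨v, hv, ρ, hρ, Or.inl fun z hz hd => hv2 z ⟨hz, hd⟩⟩
    · exact ⟨v, hv, ρ, hρ, Or.inr fun z hz hd => hv2 z ⟨hz, hd⟩⟩
  · intro h
    refine conv' (Vale.Agent.P052.R3.H304.narrow_pairs hc hk0 hk1 hX hD
      fun x hx y hy z hz hxy hxz => ?_)
    exact h x hx y z ⟨hy, hxy⟩ ⟨hz, hxz⟩
  · intro c r hc' hr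
    exact conv' (Vale.Agent.P052.R3.H304.narrow_ball hc (Real.sqrt_nonneg _) hk1 hX hD hc' hr)
  · rintro a N V p hV hG ⟨T, hT, hcov⟩
    refine conv _ (H632.symmetric hX hD V hV (κ := kappa a) (H632.cellB_kap a) p ?_ T hT ?_)
    · intro v hv w hw hv1 hw1
      obtain ⟨g, h1, h2, h3⟩ := hG v ⟨hv, hv1⟩ w ⟨hw, hw1⟩
      exact ⟨g, h2, h1, h3⟩
    · rintro x hx ⟨y, hy, hd⟩ hxp
      exact mem_iUnion.1 (hcov ⟨⟨hx, y, hy, hd⟩, hxp⟩)
  · intro p hG
    have hfr : Module.finrank ℝ (EuclideanSpace ℝ (Fin d)) = d := finrank_euclideanSpace_fin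
    have h := H632.symmetric_point hX hD (κ := kappa d) (H632.kap_nonneg d)
      (by rw [hfr]; exact H632.cellB_kap d) p (fun v w hv hw => by
        obtain ⟨g, h1, _, h3⟩ := hG v ⟨Submodule.mem_top, hv⟩ w ⟨Submodule.mem_top, hw⟩
        exact ⟨g, h1, h3⟩)
    rw [hfr] at h
    exact conv _ h
  · rintro m N e p hm he hgX ⟨T, hT, hcov⟩
    refine conv _ (H632.rotation_explicit hX hD H632.cellB_two p e he hm ?_ T hT ?_)
    · intro x hx
      have h := hgX hx
      have h2 : p + H632.rotLin e (2 * Real.pi / m) (x - p) = rot e (2 * Real.pi / m) p x := by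
        show p + ((x - p) + _ + _) = x + _ + _
        abel
      rw [h2]
      exact h
    · rintro x hx ⟨y, hy, hd⟩ hx0 hx1
      exact mem_iUnion.1 (hcov ⟨⟨hx, y, hy, hd⟩, hx0, hx1⟩)
  · intro m z hz H
    exact conv _ (H632.summand_polytope hX hD z hz (hroll _ H))
  · intro m V r hV hm hr H
    exact conv _ (H632.summand_ball hX hD V hV hm hr (hroll _ H))
  · intro Y Z hZ hXYZ hb hd
    exact hroll' _ (H632.rolls_of_sum hZ hXYZ hb hd)
  · intro Z H
    refine hroll' _ (H632.rolls_of_convexHull hX ?_)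
    rintro x hx ⟨y, hy, hd⟩
    exact H x ⟨hx, y, hy, hd⟩
  · rintro k N u ⟨T, hT, hcov⟩
    refine conv _ (H632.vectors hX hD u T hT ?_)
    rintro x hx ⟨y, hy, hd⟩
    by_cases h : ∀ i, ∃ y, Far X x y ∧ ⟪u i, y - x⟫_ℝ ≤ 0
    · left
      exact mem_iUnion.1 (hcov ⟨⟨hx, y, hy, hd⟩, h⟩)
    · right
      push Not at h
      obtain ⟨i, hi⟩ := h
      exact ⟨i, fun y hy hd => hi y ⟨hy, hd⟩⟩

end Vale.Agent.Results.P052.NarrowFarSets
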