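import Vale.Agent.P052.R2.H629.LeEight
import Vale.Agent.P052.R2.H958.JungOf
import Vale.Agent.P052.R3.H473.Final4
import Vale.Agent.P052.R3.H473.Final5
import Vale.Agent.P052.R4.H373.Plain

/-!
# P052: Borsuk's bound for sets with an almost regular simplex, and near Jung's bound

1. For every `d ≤ 8` there is an `ε > 0` such that every bounded `X ⊆ ℝ^d` is a union of `d + 1`
   sets of smaller diameter if some `d + 1` points of `ℝ^d` have mutual distances between
   `(1 - ε) diam X` and `(1 + ε) diam X` and distance at most `(1 + ε) diam X` from every point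
   of `X`.
2. For every `d ≤ 8` there is a `δ > 0` such that every bounded `X ⊆ ℝ^d` which lies in no ball of
   radius `(1 - δ) √(d / (2 (d + 1))) diam X` is a union of `d + 1` sets of smaller diameter.
3. In dimensions `4`, `5`, `6` this holds for the explicit radii `√G diam X` with
   `G = 39/100`, `33/80`, `107/250` (the squares of Jung's radii are `2/5`, `5/12`, `3/7`).
4. In dimensions `4` and `5`, already `d` almost equidistant points of the closure of `X`
   are enough.
-/

namespace Vale.Agent.Results.P052.RegularSimplices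

theorem result :
    (∀ d : ℕ, d ≤ 8 → ∃ ε : ℝ, 0 < ε ∧ ∀ X : Set (EuclideanSpace ℝ (Fin d)),
      Bornology.IsBounded X → 0 < Metric.diam X → ∀ v : Fin (d + 1) → EuclideanSpace ℝ (Fin d),
        (∀ a b, a ≠ b → (1 - ε) * Metric.diam X ≤ dist (v a) (v b)) →
        (∀ a b, dist (v a) (v b) ≤ (1 + ε) * Metric.diam X) →
        (∀ x ∈ X, ∀ a, dist x (v a) ≤ (1 + ε) * Metric.diam X) →
        ∃ P : Fin (d + 1) → Set (EuclideanSpace ℝ (Fin d)),
          (⋃ i, P i) = X ∧ ∀ i, Metric.diam (P i) < Metric.diam X) ∧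
    (∀ d : ℕ, d ≤ 8 → ∃ δ : ℝ, 0 < δ ∧ ∀ X : Set (EuclideanSpace ℝ (Fin d)),
      Bornology.IsBounded X → 0 < Metric.diam X →
        (∀ c, ¬ X ⊆ Metric.closedBall c
          ((1 - δ) * Real.sqrt ((d : ℝ) / (2 * ((d : ℝ) + 1))) * Metric.diam X)) →
        ∃ P : Fin (d + 1) → Set (EuclideanSpace ℝ (Fin d)),
          (⋃ i, P i) = X ∧ ∀ i, Metric.diam (P i) < Metric.diam X) ∧
    (∀ (d : ℕ) (G : ℝ), (d = 4 ∧ G = 39 / 100) ∨ (d = 5 ∧ G = 33 / 80) ∨ (d = 6 ∧ G = 107 / 250) →
      ∀ X : Set (EuclideanSpace ℝ (Fin d)), Bornology.IsBounded X → 0 < Metric.diam X →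
        (∀ c, ¬ X ⊆ Metric.closedBall c (Real.sqrt G * Metric.diam X)) →
        ∃ P : Fin (d + 1) → Set (EuclideanSpace ℝ (Fin d)),
          (⋃ i, P i) = X ∧ ∀ i, Metric.diam (P i) < Metric.diam X) ∧
    (∀ d : ℕ, d = 4 ∨ d = 5 → ∃ ε : ℝ, 0 < ε ∧ ∀ X : Set (EuclideanSpace ℝ (Fin d)),
      Bornology.IsBounded X → 0 < Metric.diam X → ∀ v : Fin d → EuclideanSpace ℝ (Fin d),
        (∀ a, v a ∈ closure X) →
        (∀ a b, a ≠ b → (1 - ε) * Metric.diam X ≤ dist (v a) (v b)) →
        ∃ P : Fin (d + 1) → Set (EuclideanSpace ℝ (Fin d)),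
          (⋃ i, P i) = X ∧ ∀ i, Metric.diam (P i) < Metric.diam X) :=
  ⟨fun d hd => Vale.Agent.P052.H629.simplex_near_le_eight d hd,
    fun d hd => Vale.Agent.P052.R2.H958.jung_of_near d
      (Vale.Agent.P052.H629.simplex_near_le_eight d hd),
    fun d G h X hX hD hno => Vale.Agent.P052.J373.explicit_plain d G h X hX hD hno,
    by
      rintro d (rfl | rfl)
      · exact Vale.Agent.P052.R3.H473.tetra_near
      · exact Vale.Agent.P052.R3.H473F.five_near⟩

end Vale.Agent.Results.P052.RegularSimplices
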